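import Mathlib

/-!
Holomorphic vector bundles on the smooth projective surface `ℙ¹ × ℙ¹`, smooth Hermitian metrics,
Chern curvature, strict Griffiths positivity and ampleness, all written in the four standard
affine charts of `ℙ¹ × ℙ¹`.
-/

open Matrix
open scoped ContDiff ComplexOrder

noncomputable section

namespace Vale.Agent.P296

/-- Homogeneous coordinates of the point with affine coordinate `t` in the standard chart `l`
of `ℙ¹`: coordinate `l` is `1` and the other one is `t`. -/
def hc (l : Fin 2) (t : ℂ) : Fin 2 → ℂ := fun i => if i = l then 1 else t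

theorem hc_ne_zero (l : Fin 2) (t : ℂ) : hc l t ≠ 0 := by
  intro h
  have := congrFun h l
  simp [hc] at this

/-- The complex projective line. -/
abbrev P1 := Projectivization ℂ (Fin 2 → ℂ)

/-- The four standard affine charts `ℂ² → ℙ¹ × ℙ¹`; their images cover `ℙ¹ × ℙ¹`. -/
def chart (α : Fin 2 × Fin 2) (z : Fin 2 → ℂ) : P1 × P1 :=
  (Projectivization.mk ℂ (hc α.1 (z 0)) (hc_ne_zero _ _),
    Projectivization.mk ℂ (hc α.2 (z 1)) (hc_ne_zero _ _))

/-- A holomorphic vector bundle of rank `r` on `ℙ¹ × ℙ¹`, trivialized over the four charts: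
`T α β z` carries the coordinates (column vectors) of a vector of the fibre at `chart α z` in the
frame of chart `β` to its coordinates in the frame of chart `α`. -/
structure Bundle (r : ℕ) where
  T : Fin 2 × Fin 2 → Fin 2 × Fin 2 → (Fin 2 → ℂ) → Matrix (Fin r) (Fin r) ℂ
  holo : ∀ α β a b,
    DifferentiableOn ℂ (fun z => T α β z a b) {z | chart α z ∈ Set.range (chart β)}
  self : ∀ α z, T α α z = 1
  cocycle : ∀ α β γ z w, chart α z = chart β w → chart α z ∈ Set.range (chart γ) →
    T α β z * T β γ w = T α γ z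

/-- A smooth Hermitian metric on `E`: in the frame of chart `α` the squared length of `s` at
`chart α z` is `s* (h α z) s`. -/
structure Metric {r : ℕ} (E : Bundle r) where
  h : Fin 2 × Fin 2 → (Fin 2 → ℂ) → Matrix (Fin r) (Fin r) ℂ
  smooth : ∀ α a b, ContDiff ℝ ∞ (fun z => h α z a b)
  pos : ∀ α z, (h α z).PosDef
  compat : ∀ α β z w, chart α z = chart β w → h β w = (E.T α β z)ᴴ * h α z * E.T α β z

/-- The Wirtinger derivative `∂/∂z_j = (∂/∂x_j - i ∂/∂y_j) / 2` of a matrix valued function. -/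
def dz {r : ℕ} (j : Fin 2) (F : (Fin 2 → ℂ) → Matrix (Fin r) (Fin r) ℂ) (z : Fin 2 → ℂ) :
    Matrix (Fin r) (Fin r) ℂ :=
  Matrix.of fun a b => (fderiv ℝ (fun w => F w a b) z (Pi.single j 1)
    - Complex.I * fderiv ℝ (fun w => F w a b) z (Pi.single j Complex.I)) / 2

/-- The Wirtinger derivative `∂/∂z̄_k = (∂/∂x_k + i ∂/∂y_k) / 2` of a matrix valued function. -/
def dzbar {r : ℕ} (k : Fin 2) (F : (Fin 2 → ℂ) → Matrix (Fin r) (Fin r) ℂ) (z : Fin 2 → ℂ) :
    Matrix (Fin r) (Fin r) ℂ :=
  Matrix.of fun a b => (fderiv ℝ (fun w => F w a b) z (Pi.single k 1)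
    + Complex.I * fderiv ℝ (fun w => F w a b) z (Pi.single k Complex.I)) / 2

/-- The coefficient of `dz_j ∧ dz̄_k` in the curvature `∂̄ (h⁻¹ ∂h)` of the Chern connection of
the metric with matrix `h` in a holomorphic frame. -/
def curv {r : ℕ} (h : (Fin 2 → ℂ) → Matrix (Fin r) (Fin r) ℂ) (j k : Fin 2) (z : Fin 2 → ℂ) :
    Matrix (Fin r) (Fin r) ℂ :=
  - dzbar k (fun w => (h w)⁻¹ * dz j h w) z

/-- Strict Griffiths positivity: `∑ ξ_j conj(ξ_k) h(c_{jk} s, s) > 0` at every point, for every
nonzero tangent vector `ξ` and every nonzero vector `s` of the fibre. -/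
def GriffithsPos {r : ℕ} {E : Bundle r} (g : Metric E) : Prop :=
  ∀ (α : Fin 2 × Fin 2) (z ξ : Fin 2 → ℂ) (s : Fin r → ℂ), ξ ≠ 0 → s ≠ 0 →
    0 < (∑ j, ∑ k, ξ j * starRingEnd ℂ (ξ k) *
      (star s ⬝ᵥ ((g.h α z * curv (g.h α) j k z) *ᵥ s))).re

/-- A global holomorphic section of `O_{ℙ(E)}(m)`, where `ℙ(E)` is the bundle of one-dimensional
quotients of `E`, that is, of lines in `E*`: a holomorphic function on the total space of `E*`
that is homogeneous of degree `m` on the fibres. In chart `α` the pair `(z, v)` is the covector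
with coordinates `v` (a row vector) at the point `chart α z`. -/
structure Sec {r : ℕ} (E : Bundle r) (m : ℕ) where
  val : Fin 2 × Fin 2 → (Fin 2 → ℂ) × (Fin r → ℂ) → ℂ
  holo : ∀ α, Differentiable ℂ (val α)
  homog : ∀ α z v (c : ℂ), val α (z, c • v) = c ^ m * val α (z, v)
  compat : ∀ α β z w v, chart α z = chart β w → val β (w, v ᵥ* E.T α β z) = val α (z, v)

/-- `E` is ample: for some `m > 0` finitely many global sections of `O_{ℙ(E)}(m)` have no common
zero on `ℙ(E)` and define an embedding of `ℙ(E)` in projective space, that is, a map which is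
injective and an immersion (for homogeneous functions of degree `m > 0` the induced map is an
immersion exactly when the differential of the map of cones is injective). -/
def Ample {r : ℕ} (E : Bundle r) : Prop :=
  ∃ (m n : ℕ) (σ : Fin n → Sec E m), 0 < m ∧
    (∀ α z v, v ≠ 0 → ∃ k, (σ k).val α (z, v) ≠ 0) ∧
    (∀ α β z w v v' (c : ℂ), v ≠ 0 → v' ≠ 0 →
      (∀ k, (σ k).val β (w, v') = c * (σ k).val α (z, v)) →
        chart α z = chart β w ∧ ∃ d : ℂ, v' = d • (v ᵥ* E.T α β z)) ∧
    (∀ α z v, v ≠ 0 → Function.Injective (fderiv ℂ (fun p k => (σ k).val α p) (z, v)))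

end Vale.Agent.P296
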